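import Vale.Agent.P181.H270.GenPlace
import Vale.Agent.P181.H270.Perm
import Vale.Agent.P181.H73.End2
import Vale.Agent.P181.H872.ColE

set_option autoImplicit false
set_option linter.unusedSectionVars false

/-!
# P181: tall shapes for `b = (q + 1) a + k + 1`, few columns: the configuration and the literals

`K` distinguished particles `D_κ`, `K + 3` columns.  Column `l ≤ K + 1` avoids the slots `i` with
`i + 1 < l`, the last column `l = K + 2` avoids the slots `1, …, K`; the letter of an avoided slot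
`i` sits on `D_(K + 1 + i - l)`.
-/

open scoped TensorProduct

namespace Vale.Agent.P181.TQ

open Vale.Agent.P181 Vale.Agent.P181.H280 Vale.Agent.P181.H73 Vale.Agent.P181.H270 Finset
  MvPolynomial

/-- The configuration. -/
def cfg (a K : ℕ) (h : K + 3 ≤ a) : Cfg a K (K + 3) where
  om l i := if h1 : (i : ℕ) + 1 < (l : ℕ) ∧ (l : ℕ) ≤ K + 1 + (i : ℕ) then
    some ⟨K + 1 + (i : ℕ) - (l : ℕ), by omega⟩ else none
  nG l i := if (l : ℕ) = K + 2 ∧ (i : ℕ) = 0 then ⟨2, by omega⟩ else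
    ⟨(l : ℕ), by have := l.2; omega⟩
  nD l κ := ⟨(κ : ℕ) + (l : ℕ) - (K + 1), by have := l.2; have := κ.2; omega⟩
  om_inj := by
    intro l i i' κ h1 h2
    split_ifs at h1 with h3
    split_ifs at h2 with h4
    have h5 := congrArg Fin.val (Option.some.inj (h1.trans h2.symm))
    simp only at h5
    exact Fin.ext (by omega)
  nG_inj := by
    intro l l' i h1 h2 h3
    have hl := l.2
    have hl' := l'.2
    have e1 : ¬ ((i : ℕ) + 1 < (l : ℕ) ∧ (l : ℕ) ≤ K + 1 + (i : ℕ)) := by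
      intro hc
      rw [dif_pos hc] at h1
      exact absurd h1 (by simp)
    have e2 : ¬ ((i : ℕ) + 1 < (l' : ℕ) ∧ (l' : ℕ) ≤ K + 1 + (i : ℕ)) := by
      intro hc
      rw [dif_pos hc] at h2
      exact absurd h2 (by simp)
    apply Fin.ext
    split_ifs at h3 with h5 h6 h6 <;> have h7 := congrArg Fin.val h3 <;> simp only at h7 <;> omega
  nD_inj := by
    intro l l' i i' κ h1 h2 h6
    split_ifs at h1 with h3
    split_ifs at h2 with h4
    have h5 := congrArg Fin.val (Option.some.inj h1)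
    have h7 := congrArg Fin.val (Option.some.inj h2)
    have h8 := congrArg Fin.val h6
    simp only at h5 h7 h8
    have := l.2
    have := l'.2
    exact Fin.ext (by omega)

/-- **(T1)** Only the `D_κ` are dissolved. -/
def SurvStmt : Prop := ∀ (a K q : ℕ) (h : K + 3 ≤ a)
  (e : Equiv.Perm (Fin K ⊕ (Fin a × Fin (q + 1)))) (σ : Fin K → Equiv.Perm (Fin a)),
  (∀ l, Function.Bijective (fun i => slot e σ ((cfg a K h).pos q l i))) →
  ∃ (ε : Equiv.Perm (Fin K)) (e' : Equiv.Perm (Fin a × Fin (q + 1))), e = Equiv.sumCongr ε e'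

/-- **(T2)** The placement with pure particles `G`. -/
def PlaceStmt : Prop := ∀ (A : Type) [CommRing A] [Algebra ℂ A] (a k q : ℕ) (L : Submodule ℂ A)
  (F : MultilinearMap ℂ (fun _ : Fin a => A) ℂ), k + 4 ≤ a → IsSymm F →
  Rel (k + 1) (q + 1) L F → ∀ x : Fin a → A, (∀ i, x i ∈ L) → ∀ G ∈ L ^ a,
  ∀ w : Fin (k + 1) → A, (∀ i, w i ∈ L) → ∀ v : Fin a → A,
    (∀ p : Fin a, v p ∈ L ^ (a - 3 - min ((p : ℕ) - 1) (k + 1))) →
    ((altC x)^[k + 4] F) (fun p =>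
      (∏ i : Fin (k + 1), if (i : ℕ) + 1 < (p : ℕ) then w i else 1) * v p * G ^ q) = 0

/-- **(T3)** The column property with one free slot. -/
def ColStmt : Prop := ∀ (A : Type) [CommRing A] [Algebra ℂ A] (a k j : ℕ) (L : Submodule ℂ A)
  (θ : MultilinearMap ℂ (fun _ : Fin a => A) ℂ), H872.ZInv θ → j + 4 = a →
  (k + 5 ≤ a ∨ (k = 0 ∧ 4 ≤ a)) →
  (∀ w : Fin (k + 1) → A, (∀ i, w i ∈ L) → ∀ v : Fin a → A,
    (∀ p : Fin a, v p ∈ L ^ (a - 3 - min ((p : ℕ) - 1) (k + 1))) →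
    θ (fun p => (∏ i : Fin (k + 1), if (i : ℕ) + 1 < (p : ℕ) then w i else 1) * v p) = 0) →
  Col L j θ

/-- **(T4)** Reduction to the power relation, `κ` the number of columns of the placement. -/
def RedStmt : Prop := ∀ (A : Type) [CommRing A] [Algebra ℂ A] (a q j κ : ℕ) (L : Submodule ℂ A)
  (F : MultilinearMap ℂ (fun _ : Fin a => A) ℂ), 2 ≤ a → 1 ≤ q → IsSymm F →
  ∀ x : Fin a → A, (∀ i, x i ∈ L) →
  (∀ G ∈ L ^ a, Col L j (mulArg ((altC x)^[κ] F) (fun _ => G ^ q))) →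
  ∀ B : ℕ, B0 q ≤ B → B ≤ q * a → ∀ Q : Fin a → A, (∀ i, Q i ∈ L ^ (q * a - B)) →
    Col L j (permP κ Q ((altC x)^[κ + B] F))

/-- **(T5)** The end of the argument, for both parities. -/
def EndStmt : Prop := ∀ (r b : ℕ) (lam : Fin (r + 1) → ℕ)
  (F : MultilinearMap ℂ (fun _ : Fin (r + 1) => MvPolynomial (Fin (r + 1)) ℂ) ℂ), IsSymm F →
  HWForm (fun i => (X i : MvPolynomial (Fin (r + 1)) ℂ)) (fun i => pderiv i)
    (fun b => linS (r + 1) ^ b) b (fun i => (lam i : ℂ)) F →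
  ∀ t e d D κ : ℕ, b = t + (d + 1) + D → Even (κ + e) → e ≤ d → r ≤ D →
  lam (Fin.last r) = t + e → (∀ i, lam (Fin.last r) ≤ lam i) →
  (∀ Q : Fin (r + 1) → MvPolynomial (Fin (r + 1)) ℂ, (∀ i, Q i ∈ linS (r + 1) ^ D) →
    Col (linS (r + 1)) d (permP κ Q
      ((altC (fun i => (X i : MvPolynomial (Fin (r + 1)) ℂ)))^[t] F))) →
  ∀ P : Fin (r + 1) → MvPolynomial (Fin (r + 1)) ℂ, (∀ i, P i ∈ linS (r + 1) ^ b) → F P = 0

/-- **(T6)** The final theorem, `b = q a + k`, `q ≥ 2`, `1 ≤ k ≤ a - 4` (`k = 1`: `a ≥ 4`). -/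
def FinStmt : Prop := ∀ (a q k n : ℕ) (lam : Fin n → ℕ), 1 ≤ k → (k + 4 ≤ a ∨ (k = 1 ∧ 4 ≤ a)) →
  2 ≤ q → a ≤ n →
  (∀ i : Fin n, (i : ℕ) < a → k + 4 ≤ lam i + k % 2 ∧ k + 2 * q ≤ lam i + 1 + k % 2) →
  (∃ i : Fin n, (i : ℕ) < a ∧ lam i + 1 ≤ (q - 1) * a + k) →
  plethMult a (q * a + k) n lam ≤ plethMult (q * a + k) a n lam

end Vale.Agent.P181.TQ
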