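import Vale.Agent.P181.TQ.Place
import Vale.Agent.P181.TQ.H662.Col
import Vale.Agent.P181.TQ.H662.End
import Vale.Agent.P181.TQ.H983.Fin
import Vale.Agent.P181.H481.TQ.Red

set_option autoImplicit false

/-!
# P181: tall shapes for `b = q a + k`, `q ≥ 2`, few columns
-/

namespace Vale.Agent.P181.TQ

open Vale.Agent.P181 Vale.Agent.P181.H280

/-- Foulkes' inequality for `b = q a + k`, `q ≥ 2`, `1 ≤ k ≤ a - 4` (`k = 1`: `a ≥ 4`), and all
shapes with `max (k + 3, k + 2 q - 2) ≤ lam_a ≤ b - a - 1` (`k` even: one more column). -/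
theorem tallTQ (a q k n : ℕ) (lam : Fin n → ℕ) (hk : 1 ≤ k) (ha : k + 4 ≤ a ∨ (k = 1 ∧ 4 ≤ a))
    (hq : 2 ≤ q) (han : a ≤ n)
    (hlo : ∀ i : Fin n, (i : ℕ) < a → k + 4 ≤ lam i + k % 2 ∧ k + 2 * q ≤ lam i + 1 + k % 2)
    (hhi : ∃ i : Fin n, (i : ℕ) < a ∧ lam i + 1 ≤ (q - 1) * a + k) :
    plethMult a (q * a + k) n lam ≤ plethMult (q * a + k) a n lam :=
  H983.fin place H662.colStmt Vale.Agent.P181.H481.TQ.red H662.endStmt a q k n lam hk ha hq han hlo hhi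

end Vale.Agent.P181.TQ
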