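import Vale.Agent.P181.TQ.Surv
import Vale.Agent.P181.H872.PlaceE2

set_option autoImplicit false
set_option linter.unusedSectionVars false

/-!
# P181: the placement with `K + 3` columns and pure particles
-/

namespace Vale.Agent.P181.TQ

open Vale.Agent.P181 Vale.Agent.P181.H280 Vale.Agent.P181.H73 Vale.Agent.P181.H270 Finset

variable {A : Type*} [CommRing A] [Algebra ℂ A]

/-- The transfer is forced. -/
lemma forced {a K : ℕ} (h : K + 3 ≤ a) (t : Fin K → Equiv.Perm (Fin a))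
    (hb : ∀ l, Function.Bijective ((cfg a K h).eta t l)) :
    ∀ (n : ℕ) (l : Fin (K + 3)), (l : ℕ) = n → ∀ i, (cfg a K h).eta t l i = i := by
  intro n
  induction n using Nat.strong_induction_on with
  | _ n ih =>
  intro l hl
  apply H872.eq_id_of_le _ (hb l).1
  intro i
  by_cases h1 : (i : ℕ) + 1 < (l : ℕ) ∧ (l : ℕ) ≤ K + 1 + (i : ℕ)
  · obtain ⟨h1a, h1b⟩ := h1
    have hl2 := l.2
    have hκ : K + 1 + (i : ℕ) - (l : ℕ) < K := by omega
    have h2 := om_some (h := h) ⟨h1a, h1b⟩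
    rw [Cfg.eta_some h2]
    have h3 : (cfg a K h).nD l ⟨K + 1 + (i : ℕ) - (l : ℕ), hκ⟩ = i := by
      apply Fin.ext
      show K + 1 + (i : ℕ) - (l : ℕ) + (l : ℕ) - (K + 1) = (i : ℕ)
      omega
    rw [h3]
    by_contra hcon
    rw [not_le] at hcon
    set s := t ⟨K + 1 + (i : ℕ) - (l : ℕ), hκ⟩ i with hs
    -- the earlier column with the letter `s`
    have hsi : (s : ℕ) < (i : ℕ) := hcon
    have hl'b : (l : ℕ) + (s : ℕ) - (i : ℕ) < K + 3 := by omega
    have h4 : (s : ℕ) + 1 < ((⟨(l : ℕ) + (s : ℕ) - (i : ℕ), hl'b⟩ : Fin (K + 3)) : ℕ) ∧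
        ((⟨(l : ℕ) + (s : ℕ) - (i : ℕ), hl'b⟩ : Fin (K + 3)) : ℕ) ≤ K + 1 + (s : ℕ) := by
      show (s : ℕ) + 1 < (l : ℕ) + (s : ℕ) - (i : ℕ) ∧
        (l : ℕ) + (s : ℕ) - (i : ℕ) ≤ K + 1 + (s : ℕ)
      omega
    have h5 := ih ((l : ℕ) + (s : ℕ) - (i : ℕ)) (by omega)
      ⟨(l : ℕ) + (s : ℕ) - (i : ℕ), hl'b⟩ rfl s
    rw [Cfg.eta_some (om_some (h := h) h4)] at h5
    have h6 : (⟨K + 1 + (s : ℕ) - ((⟨(l : ℕ) + (s : ℕ) - (i : ℕ), hl'b⟩ : Fin (K + 3)) : ℕ), by
        show K + 1 + (s : ℕ) - ((l : ℕ) + (s : ℕ) - (i : ℕ)) < K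
        omega⟩ : Fin K) = ⟨K + 1 + (i : ℕ) - (l : ℕ), hκ⟩ := by
      apply Fin.ext
      show K + 1 + (s : ℕ) - ((l : ℕ) + (s : ℕ) - (i : ℕ)) = K + 1 + (i : ℕ) - (l : ℕ)
      omega
    rw [h6] at h5
    have h7 : (cfg a K h).nD ⟨(l : ℕ) + (s : ℕ) - (i : ℕ), hl'b⟩
        ⟨K + 1 + (i : ℕ) - (l : ℕ), hκ⟩ = s := by
      apply Fin.ext
      show K + 1 + (i : ℕ) - (l : ℕ) + ((l : ℕ) + (s : ℕ) - (i : ℕ)) - (K + 1) = (s : ℕ)
      omega
    rw [h7] at h5
    have h8 : s = i := (t ⟨K + 1 + (i : ℕ) - (l : ℕ), hκ⟩).injective (h5.trans hs)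
    rw [h8] at hsi
    exact lt_irrefl _ hsi
  · rw [Cfg.eta_none (om_none h1)]

/-- The letters below the diagonal stay. -/
lemma forced' {a K : ℕ} (h : K + 3 ≤ a) (t : Fin K → Equiv.Perm (Fin a))
    (hb : ∀ l, Function.Bijective ((cfg a K h).eta t l)) (κ : Fin K) (s : Fin a)
    (hs : (s : ℕ) ≤ (κ : ℕ) + 1) : t κ s = s := by
  have hκ := κ.2
  have hl : K + 1 + (s : ℕ) - (κ : ℕ) < K + 3 := by omega
  have h1 := forced h t hb _ ⟨K + 1 + (s : ℕ) - (κ : ℕ), hl⟩ rfl s
  have h2 : (s : ℕ) + 1 < ((⟨K + 1 + (s : ℕ) - (κ : ℕ), hl⟩ : Fin (K + 3)) : ℕ) ∧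
      ((⟨K + 1 + (s : ℕ) - (κ : ℕ), hl⟩ : Fin (K + 3)) : ℕ) ≤ K + 1 + (s : ℕ) := by
    show (s : ℕ) + 1 < K + 1 + (s : ℕ) - (κ : ℕ) ∧ K + 1 + (s : ℕ) - (κ : ℕ) ≤ K + 1 + (s : ℕ)
    omega
  rw [Cfg.eta_some (om_some (h := h) h2)] at h1
  have h3 : (⟨K + 1 + (s : ℕ) - ((⟨K + 1 + (s : ℕ) - (κ : ℕ), hl⟩ : Fin (K + 3)) : ℕ), by
      show K + 1 + (s : ℕ) - (K + 1 + (s : ℕ) - (κ : ℕ)) < K
      omega⟩ : Fin K) = κ := by
    apply Fin.ext
    show K + 1 + (s : ℕ) - (K + 1 + (s : ℕ) - (κ : ℕ)) = (κ : ℕ)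
    omega
  rw [h3] at h1
  have h4 : (cfg a K h).nD ⟨K + 1 + (s : ℕ) - (κ : ℕ), hl⟩ κ = s := by
    apply Fin.ext
    show (κ : ℕ) + (K + 1 + (s : ℕ) - (κ : ℕ)) - (K + 1) = (s : ℕ)
    omega
  rw [h4] at h1
  exact h1

section Place

variable {a K q : ℕ}

/-- The letters of the `D_κ`. -/
def BDF (w : Fin K → A) (κ : Fin K) (n : Fin a) : A := if (n : ℕ) ≤ (κ : ℕ) + 1 then 1 else w κ

/-- The letters of the `G_i`. -/
def ZF (K : ℕ) (u : Fin a → Fin a → A) (i n : Fin a) : A :=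
  if (n : ℕ) < min ((i : ℕ) - 1) K + 3 then 1 else u i n

/-- The letters of the particles in the slots. -/
def RF (K : ℕ) (u : Fin a → Fin a → A) (ν : Fin a × Fin q → Fin a → A)
    (r : Fin a × Fin (q + 1)) (n : Fin a) : A :=
  Fin.cases (motive := fun _ => A) (ZF K u r.1 n) (fun j => ν (r.1, j) n) r.2

/-- The base array. -/
def BF (w : Fin K → A) (u : Fin a → Fin a → A) (ν : Fin a × Fin q → Fin a → A) :
    (Fin K ⊕ (Fin a × Fin (q + 1))) × Fin a → A := fun pos =>
  Sum.elim (fun κ => BDF w κ pos.2) (fun r => RF K u ν r pos.2) pos.1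

/-- The contents of the `G_i`. -/
def WF (K : ℕ) (u : Fin a → Fin a → A) (i : Fin a) : A := ∏ n, ZF K u i n

lemma BF_pos (h : K + 3 ≤ a) (w : Fin K → A) (u : Fin a → Fin a → A)
    (ν : Fin a × Fin q → Fin a → A) (l : Fin (K + 3)) (i : Fin a) :
    BF w u ν ((cfg a K h).pos q l i) = 1 := by
  have hl := l.2
  by_cases h1 : (i : ℕ) + 1 < (l : ℕ) ∧ (l : ℕ) ≤ K + 1 + (i : ℕ)
  · rw [Cfg.pos_some (om_some (h := h) h1)]
    show (if K + 1 + (i : ℕ) - (l : ℕ) + (l : ℕ) - (K + 1) ≤ K + 1 + (i : ℕ) - (l : ℕ) + 1 then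
      (1 : A) else _) = 1
    rw [if_pos]
    omega
  · rw [Cfg.pos_none (om_none h1)]
    show (if (((if (l : ℕ) = K + 2 ∧ (i : ℕ) = 0 then (⟨2, by omega⟩ : Fin a) else
      ⟨(l : ℕ), by omega⟩) : Fin a) : ℕ) < min ((i : ℕ) - 1) K + 3 then (1 : A) else _) = 1
    rw [if_pos]
    split_ifs with h2
    · show 2 < _
      omega
    · show (l : ℕ) < _
      omega

lemma BF_mem (h : K + 3 ≤ a) (L : Submodule ℂ A) (w : Fin K → A) (hw : ∀ κ, w κ ∈ L)
    (u : Fin a → Fin a → A) (hu : ∀ i n, u i n ∈ L)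
    (ν : Fin a × Fin q → Fin a → A) (hν : ∀ r n, ν r n ∈ L)
    (pos : (Fin K ⊕ (Fin a × Fin (q + 1))) × Fin a)
    (hpos : ∀ l i, pos ≠ (cfg a K h).pos q l i) : BF w u ν pos ∈ L := by
  obtain ⟨r, n⟩ := pos
  rcases r with κ | ⟨i, j⟩
  · show (if (n : ℕ) ≤ (κ : ℕ) + 1 then (1 : A) else w κ) ∈ L
    by_cases hn : (n : ℕ) ≤ (κ : ℕ) + 1
    · exfalso
      have hκ := κ.2
      have hl : K + 1 + (n : ℕ) - (κ : ℕ) < K + 3 := by omega
      have h2 : (n : ℕ) + 1 < ((⟨K + 1 + (n : ℕ) - (κ : ℕ), hl⟩ : Fin (K + 3)) : ℕ) ∧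
          ((⟨K + 1 + (n : ℕ) - (κ : ℕ), hl⟩ : Fin (K + 3)) : ℕ) ≤ K + 1 + (n : ℕ) := by
        show (n : ℕ) + 1 < K + 1 + (n : ℕ) - (κ : ℕ) ∧ K + 1 + (n : ℕ) - (κ : ℕ) ≤ K + 1 + (n : ℕ)
        omega
      apply hpos ⟨K + 1 + (n : ℕ) - (κ : ℕ), hl⟩ n
      rw [Cfg.pos_some (om_some (h := h) h2)]
      have h3 : (⟨K + 1 + (n : ℕ) - ((⟨K + 1 + (n : ℕ) - (κ : ℕ), hl⟩ : Fin (K + 3)) : ℕ), by
          show K + 1 + (n : ℕ) - (K + 1 + (n : ℕ) - (κ : ℕ)) < K
          omega⟩ : Fin K) = κ := by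
        apply Fin.ext
        show K + 1 + (n : ℕ) - (K + 1 + (n : ℕ) - (κ : ℕ)) = (κ : ℕ)
        omega
      rw [h3]
      have h4 : (cfg a K h).nD ⟨K + 1 + (n : ℕ) - (κ : ℕ), hl⟩ κ = n := by
        apply Fin.ext
        show (κ : ℕ) + (K + 1 + (n : ℕ) - (κ : ℕ)) - (K + 1) = (n : ℕ)
        omega
      rw [h4]
    · rw [if_neg hn]
      exact hw κ
  · revert hpos
    refine Fin.cases ?_ (fun j => ?_) j
    · intro hpos
      show (if (n : ℕ) < min ((i : ℕ) - 1) K + 3 then (1 : A) else u i n) ∈ L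
      by_cases hn : (n : ℕ) < min ((i : ℕ) - 1) K + 3
      · exfalso
        by_cases hi : (i : ℕ) = 0 ∧ (n : ℕ) = 2
        · apply hpos ⟨K + 2, by omega⟩ i
          have h2 : ¬ ((i : ℕ) + 1 < ((⟨K + 2, by omega⟩ : Fin (K + 3)) : ℕ) ∧
              ((⟨K + 2, by omega⟩ : Fin (K + 3)) : ℕ) ≤ K + 1 + (i : ℕ)) := by
            show ¬ ((i : ℕ) + 1 < K + 2 ∧ K + 2 ≤ K + 1 + (i : ℕ))
            omega
          rw [Cfg.pos_none (om_none h2)]
          have h3 : (cfg a K h).nG ⟨K + 2, by omega⟩ i = n := by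
            apply Fin.ext
            show ((if K + 2 = K + 2 ∧ (i : ℕ) = 0 then (⟨2, by omega⟩ : Fin a) else
              ⟨K + 2, by omega⟩ : Fin a) : ℕ) = (n : ℕ)
            rw [if_pos ⟨rfl, hi.1⟩]
            exact hi.2.symm
          rw [h3]
        · have hl : (n : ℕ) < K + 3 := by omega
          apply hpos ⟨(n : ℕ), hl⟩ i
          have h2 : ¬ ((i : ℕ) + 1 < ((⟨(n : ℕ), hl⟩ : Fin (K + 3)) : ℕ) ∧
              ((⟨(n : ℕ), hl⟩ : Fin (K + 3)) : ℕ) ≤ K + 1 + (i : ℕ)) := by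
            show ¬ ((i : ℕ) + 1 < (n : ℕ) ∧ (n : ℕ) ≤ K + 1 + (i : ℕ))
            omega
          rw [Cfg.pos_none (om_none h2)]
          have h3 : (cfg a K h).nG ⟨(n : ℕ), hl⟩ i = n := by
            apply Fin.ext
            show ((if (n : ℕ) = K + 2 ∧ (i : ℕ) = 0 then (⟨2, by omega⟩ : Fin a) else
              ⟨(n : ℕ), n.2⟩ : Fin a) : ℕ) = (n : ℕ)
            rw [if_neg (by omega)]
          rw [h3]
      · rw [if_neg hn]
        exact hu i n
    · intro _
      exact hν (i, j) n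

/-- The contents of the slots. -/
lemma cont_BF (w : Fin K → A) (u : Fin a → Fin a → A) (ν : Fin a × Fin q → Fin a → A)
    (ε : Equiv.Perm (Fin K))
    (e' : Equiv.Perm (Fin a × Fin (q + 1))) (σ : Fin K → Equiv.Perm (Fin a)) (p : Fin a) :
    cont (slot (Equiv.sumCongr ε e') σ) (BF w u ν) p =
      (∏ κ, ∏ n, (if slot (Equiv.sumCongr ε e') σ (.inl κ, n) = p then BDF w κ n else 1)) *
        ∏ r : Fin a × Fin (q + 1), (if (e'.symm r).1 = p then ∏ n, RF K u ν r n else 1) := by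
  rw [cont, Fintype.prod_prod_type, Fintype.prod_sum_type]
  congr 1
  apply Finset.prod_congr rfl
  intro r _
  by_cases h : (e'.symm r).1 = p
  · rw [if_pos h]
    apply Finset.prod_congr rfl
    intro n _
    rw [Cfg.slot_sum_inr, if_pos h]
    rfl
  · rw [if_neg h]
    apply Finset.prod_eq_one
    intro n _
    rw [Cfg.slot_sum_inr, if_neg h]

/-- The pure particles split off. -/
lemma prod_RF (u : Fin a → Fin a → A) (ν : Fin a × Fin q → Fin a → A)
    (e' : Equiv.Perm (Fin a × Fin (q + 1))) (p : Fin a) :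
    ∏ r : Fin a × Fin (q + 1), (if (e'.symm r).1 = p then ∏ n, RF K u ν r n else 1) =
      (∏ i : Fin a, (if (e'.symm (i, 0)).1 = p then WF K u i else 1)) *
        ∏ r : Fin a × Fin q, (if (e'.symm (r.1, r.2.succ)).1 = p then ∏ n, ν r n else 1) := by
  rw [Fintype.prod_prod_type, Fintype.prod_prod_type, ← Finset.prod_mul_distrib]
  apply Finset.prod_congr rfl
  intro i _
  rw [Fin.prod_univ_succ]
  rfl

/-- The value of a good placement. -/
noncomputable def XF (φ : MultilinearMap ℂ (fun _ : Fin a => A) ℂ) (w : Fin K → A)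
    (u : Fin a → Fin a → A) : ℂ :=
  φ (fun i => (∏ κ : Fin K, if (κ : ℕ) + 1 < (i : ℕ) then w κ else 1) * WF K u i)

/-- The term of a distribution. -/
lemma term_cls (h : K + 3 ≤ a) (φ : MultilinearMap ℂ (fun _ : Fin a => A) ℂ) (w : Fin K → A)
    (u : Fin a → Fin a → A) (t : Fin K → Equiv.Perm (Fin a)) :
    (cfg a K h).term φ (BDF w) (WF K u) t = 0 ∨
      (cfg a K h).term φ (BDF w) (WF K u) t = XF φ w u := by
  classical
  rw [Cfg.term]
  by_cases hb : ∀ l, Function.Bijective ((cfg a K h).eta t l)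
  · right
    rw [dif_pos hb]
    have h1 : ∀ l, Equiv.ofBijective _ (hb l) = 1 := by
      intro l
      ext i
      show (((cfg a K h).eta t l i : Fin a) : ℕ) = (i : ℕ)
      rw [forced h t hb _ l rfl i]
    have h2 : ∏ l, ((Equiv.Perm.sign (Equiv.ofBijective _ (hb l)) : ℤ) : ℂ) = 1 := by
      apply Finset.prod_eq_one
      intro l _
      rw [h1 l]
      simp
    rw [h2, one_mul, XF]
    congr 1
    funext i
    congr 1
    apply Finset.prod_congr rfl
    intro κ _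
    rw [BDF]
    by_cases hi : (κ : ℕ) + 1 < (i : ℕ)
    · rw [if_pos hi, if_neg]
      intro h3
      have h4 := forced' h t hb κ _ h3
      rw [Equiv.apply_symm_apply] at h4
      rw [← h4] at h3
      omega
    · rw [if_neg hi, if_pos]
      have h4 := forced' h t hb κ i (by omega)
      have h5 : (t κ).symm i = i := by rw [Equiv.symm_apply_eq, h4]
      rw [h5]
      omega
  · left
    rw [dif_neg hb]

open Classical in
/-- All terms are `0` or the good value. -/
lemma master_cls (h : K + 3 ≤ a) {φ : MultilinearMap ℂ (fun _ : Fin a => A) ℂ}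
    (hφ : IsSgn (K + 3) φ) (w : Fin K → A) (u : Fin a → Fin a → A)
    (e : Equiv.Perm (Fin K ⊕ (Fin a × Fin (q + 1)))) (σ : Fin K → Equiv.Perm (Fin a)) :
    (if hh : ∀ c, Function.Bijective (fun i => slot e σ ((cfg a K h).pos q c i)) then
        (∏ c, ((Equiv.Perm.sign (Equiv.ofBijective _ (hh c)) : ℤ) : ℂ)) *
          φ (cont (slot e σ) (BF w u (fun _ _ => 1))) else 0) = 0 ∨
    (if hh : ∀ c, Function.Bijective (fun i => slot e σ ((cfg a K h).pos q c i)) then
        (∏ c, ((Equiv.Perm.sign (Equiv.ofBijective _ (hh c)) : ℤ) : ℂ)) *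
          φ (cont (slot e σ) (BF w u (fun _ _ => 1))) else 0) = XF φ w u := by
  by_cases hh : ∀ c, Function.Bijective (fun i => slot e σ ((cfg a K h).pos q c i))
  · obtain ⟨ε, e', rfl⟩ := surv a K q h e σ hh
    have hbij : Function.Bijective (fun i : Fin a => (e'.symm (i, 0)).1) := by
      have h1 := hh ⟨0, by omega⟩
      have h2 : (fun i => slot (Equiv.sumCongr ε e') σ ((cfg a K h).pos q ⟨0, by omega⟩ i)) =
          fun i : Fin a => (e'.symm (i, 0)).1 := by
        funext i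
        rw [Cfg.pos_none (om_none (by
          show ¬ ((i : ℕ) + 1 < 0 ∧ _)
          omega)), Cfg.slot_sum_inr]
      rwa [h2] at h1
    let π : Equiv.Perm (Fin a) := Equiv.ofBijective _ hbij
    have hπ : ∀ i, (e'.symm (i, 0)).1 = π i := fun i => rfl
    let t : Fin K → Equiv.Perm (Fin a) := fun κ => π⁻¹ * (σ (ε.symm κ))⁻¹
    have hσ : (fun j => (π * t (ε j))⁻¹) = σ := by
      funext j
      show (π * (π⁻¹ * (σ (ε.symm (ε j)))⁻¹))⁻¹ = σ j
      rw [Equiv.symm_apply_apply, mul_inv_cancel_left, inv_inv]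
    have hZ : ∀ p, ∏ r : Fin a × Fin (q + 1), (if (e'.symm r).1 = p then
        ∏ n, RF K u (fun _ _ => (1 : A)) r n else 1) = WF K u (π.symm p) := by
      intro p
      rw [prod_RF]
      have h1 : ∏ r : Fin a × Fin q, (if (e'.symm (r.1, r.2.succ)).1 = p then
          ∏ _n : Fin a, (1 : A) else 1) = 1 := by
        apply Finset.prod_eq_one
        intro r _
        rw [Finset.prod_const_one]
        split_ifs <;> rfl
      rw [h1, mul_one, Finset.prod_eq_single (π.symm p)]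
      · rw [if_pos]
        rw [hπ, Equiv.apply_symm_apply]
      · intro i _ hi
        rw [if_neg]
        intro h5
        apply hi
        rw [hπ] at h5
        rw [← h5, Equiv.symm_apply_apply]
      · intro h5
        exact absurd (Finset.mem_univ _) h5
    have h1 := Cfg.term_eq (C := cfg a K h) (q := q) hφ (BDF w)
      (fun r : Fin a × Fin (q + 1) => ∏ n, RF K u (fun _ _ => (1 : A)) r n) (WF K u) ε e' π hπ
      hZ t
    have h2 : (if hh : ∀ c, Function.Bijective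
          (fun i => slot (Equiv.sumCongr ε e') σ ((cfg a K h).pos q c i)) then
        (∏ c, ((Equiv.Perm.sign (Equiv.ofBijective _ (hh c)) : ℤ) : ℂ)) *
          φ (cont (slot (Equiv.sumCongr ε e') σ) (BF w u (fun _ _ => 1))) else 0) =
        (cfg a K h).term φ (BDF w) (WF K u) t := by
      rw [← h1]
      have h3 : cont (slot (Equiv.sumCongr ε e') σ) (BF w u (fun _ _ => 1)) = fun p =>
          (∏ κ, ∏ n, (if slot (Equiv.sumCongr ε e') (fun j => (π * t (ε j))⁻¹) (.inl κ, n) = p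
            then BDF w κ n else 1)) *
          ∏ r : Fin a × Fin (q + 1), (if (e'.symm r).1 = p then
            ∏ n, RF K u (fun _ _ => (1 : A)) r n else 1) := by
        funext p
        rw [hσ, cont_BF]
      rw [h3]
      simp only [hσ]
    rw [h2]
    exact term_cls h φ w u t
  · left
    rw [dif_neg hh]

open Classical in
/-- The witness. -/
lemma witness (h : K + 3 ≤ a) (φ : MultilinearMap ℂ (fun _ : Fin a => A) ℂ) (w : Fin K → A)
    (u : Fin a → Fin a → A) :
    (if hh : ∀ c, Function.Bijective (fun i =>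
          slot (Equiv.sumCongr (1 : Equiv.Perm (Fin K)) (1 : Equiv.Perm (Fin a × Fin (q + 1))))
          (fun _ : Fin K => (1 : Equiv.Perm (Fin a))) ((cfg a K h).pos q c i)) then
        (∏ c, ((Equiv.Perm.sign (Equiv.ofBijective _ (hh c)) : ℤ) : ℂ)) *
          φ (cont (slot (Equiv.sumCongr (1 : Equiv.Perm (Fin K))
            (1 : Equiv.Perm (Fin a × Fin (q + 1))))
            (fun _ : Fin K => (1 : Equiv.Perm (Fin a)))) (BF w u (fun _ _ => 1))) else 0) =
      XF φ w u := by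
  have hid : ∀ (c : Fin (K + 3)) (i : Fin a),
      slot (Equiv.sumCongr (1 : Equiv.Perm (Fin K)) (1 : Equiv.Perm (Fin a × Fin (q + 1))))
      (fun _ : Fin K => (1 : Equiv.Perm (Fin a))) ((cfg a K h).pos q c i) = i := by
    intro c i
    by_cases h2 : (i : ℕ) + 1 < (c : ℕ) ∧ (c : ℕ) ≤ K + 1 + (i : ℕ)
    · rw [Cfg.pos_some (om_some (h := h) h2)]
      apply Fin.ext
      show K + 1 + (i : ℕ) - (c : ℕ) + (c : ℕ) - (K + 1) = (i : ℕ)
      have := c.2
      omega
    · rw [Cfg.pos_none (om_none h2)]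
      rfl
  have hh : ∀ c, Function.Bijective (fun i =>
      slot (Equiv.sumCongr (1 : Equiv.Perm (Fin K)) (1 : Equiv.Perm (Fin a × Fin (q + 1))))
      (fun _ : Fin K => (1 : Equiv.Perm (Fin a))) ((cfg a K h).pos q c i)) := by
    intro c
    have h1 : (fun i => slot (Equiv.sumCongr (1 : Equiv.Perm (Fin K))
        (1 : Equiv.Perm (Fin a × Fin (q + 1))))
        (fun _ : Fin K => (1 : Equiv.Perm (Fin a))) ((cfg a K h).pos q c i)) = id := by
      funext i
      exact hid c i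
    rw [h1]
    exact Function.bijective_id
  rw [dif_pos hh]
  have h1 : ∀ c, Equiv.ofBijective _ (hh c) = 1 := by
    intro c
    ext i
    show ((slot _ _ ((cfg a K h).pos q c i) : Fin a) : ℕ) = (i : ℕ)
    rw [hid c i]
  have h2 : ∏ c, ((Equiv.Perm.sign (Equiv.ofBijective _ (hh c)) : ℤ) : ℂ) = 1 := by
    apply Finset.prod_eq_one
    intro c _
    rw [h1 c]
    simp
  rw [h2, one_mul, XF]
  congr 1
  funext p
  rw [cont_BF, prod_RF]
  have h6 : ∏ r : Fin a × Fin q,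
      (if ((1 : Equiv.Perm (Fin a × Fin (q + 1))).symm (r.1, r.2.succ)).1 = p then
        ∏ _n : Fin a, (1 : A) else 1) = 1 := by
    apply Finset.prod_eq_one
    intro r _
    rw [Finset.prod_const_one]
    split_ifs <;> rfl
  rw [h6, mul_one]
  congr 1
  · apply Finset.prod_congr rfl
    intro κ _
    rw [Finset.prod_eq_single p]
    · rw [Cfg.slot_sum_inl, if_pos (show (1 : Equiv.Perm (Fin a)).symm p = p from rfl), BDF]
      by_cases hp : (κ : ℕ) + 1 < (p : ℕ)
      · rw [if_pos hp, if_neg (by omega)]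
      · rw [if_neg hp, if_pos (by omega)]
    · intro n _ hn
      rw [Cfg.slot_sum_inl, if_neg]
      exact hn
    · intro h5
      exact absurd (Finset.mem_univ _) h5
  · rw [Finset.prod_eq_single p]
    · exact if_pos rfl
    · intro i _ hr
      rw [if_neg]
      intro h5
      exact hr h5
    · intro h5
      exact absurd (Finset.mem_univ _) h5

/-- The relation with pure particles `G`. -/
lemma XF_zero (h : K + 3 ≤ a) (L : Submodule ℂ A)
    (F : MultilinearMap ℂ (fun _ : Fin a => A) ℂ) (hs : IsSymm F) (hF : Rel K (q + 1) L F)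
    (x : Fin a → A) (hx : ∀ i, x i ∈ L) (w : Fin K → A) (hw : ∀ κ, w κ ∈ L)
    (u : Fin a → Fin a → A) (hu : ∀ i n, u i n ∈ L) (G : A) (hG : G ∈ L ^ a) :
    XF (mulArg ((altC x)^[K + 3] F) (fun _ => G ^ q)) w u = 0 := by
  classical
  set φ := (altC x)^[K + 3] F with hφd
  have hφ : IsSgn (K + 3) φ := isSgn_iter hs x (K + 3)
  have hφ' : IsSgn (K + 3) (mulArg φ (fun _ => G ^ q)) := by
    intro τ R
    rw [mulArg_apply, mulArg_apply, ← hφ τ (fun i => G ^ q * R i)]
  -- the multilinear map of the pure particles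
  let M : Equiv.Perm (Fin K ⊕ (Fin a × Fin (q + 1))) → (Fin K → Equiv.Perm (Fin a)) →
      MultilinearMap ℂ (fun _ : Fin a × Fin q => A) ℂ := fun e σ =>
    if hh : ∀ c, Function.Bijective (fun i => slot e σ ((cfg a K h).pos q c i)) then
      (∏ c, ((Equiv.Perm.sign (Equiv.ofBijective _ (hh c)) : ℤ) : ℂ)) •
      slotMul (fun r => slot e σ (.inr (r.1, r.2.succ), ⟨0, by omega⟩))
        (mulArg φ (cont (slot e σ) (BF w u (fun _ _ => 1)))) else 0
  have hM0 : ∀ Nn : Fin a × Fin q → A,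
      (∀ r, Nn r ∈ {g : A | ∃ y : Fin a → A, (∀ s, y s ∈ L) ∧ g = ∏ s, y s}) →
      (∑ e, ∑ σ, M e σ) Nn = 0 := by
    intro Nn hN
    choose ν hν hNν using hN
    have h1 := master (N := K + 3) L F hF x hx (fun c i => (cfg a K h).pos q c i)
      (fun c i c' i' hcc => Cfg.pos_inj hcc) (BF w u ν) (fun c i => BF_pos h w u ν c i)
      (fun pos hpos => BF_mem h L w hw u hu ν hν pos hpos)
    rw [← h1, _root_.sum_apply]
    apply Finset.sum_congr rfl
    intro e _
    rw [_root_.sum_apply]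
    apply Finset.sum_congr rfl
    intro σ _
    simp only [M]
    by_cases hh : ∀ c, Function.Bijective (fun i => slot e σ ((cfg a K h).pos q c i))
    · rw [dif_pos hh, dif_pos hh, smul_apply, smul_eq_mul, slotMul_apply,
        mulArg_apply]
      congr 1
      congr 1
      funext p
      obtain ⟨ε, e', rfl⟩ := surv a K q h e σ hh
      rw [cont_BF, cont_BF, prod_RF, prod_RF]
      have h6 : ∏ r : Fin a × Fin q,
          (if (e'.symm (r.1, r.2.succ)).1 = p then ∏ _n : Fin a, (1 : A) else 1) = 1 := by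
        apply Finset.prod_eq_one
        intro r _
        rw [Finset.prod_const_one]
        split_ifs <;> rfl
      rw [h6, mul_one, mul_assoc]
      congr 2
      apply Finset.prod_congr rfl
      intro r _
      rw [Cfg.slot_sum_inr, hNν r]
    · rw [dif_neg hh, dif_neg hh]
      rfl
  have hM : (∑ e, ∑ σ, M e σ) (fun _ => G) = 0 :=
    mzero_of_span (∑ e, ∑ σ, M e σ) _ hM0 (fun _ => G) (fun k => pow_eq_span L a hG)
  have hval : ∀ e σ, M e σ (fun _ => G) =
      if hh : ∀ c, Function.Bijective (fun i => slot e σ ((cfg a K h).pos q c i)) then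
        (∏ c, ((Equiv.Perm.sign (Equiv.ofBijective _ (hh c)) : ℤ) : ℂ)) *
          (mulArg φ (fun _ => G ^ q)) (cont (slot e σ) (BF w u (fun _ _ => 1))) else 0 := by
    intro e σ
    simp only [M]
    by_cases hh : ∀ c, Function.Bijective (fun i => slot e σ ((cfg a K h).pos q c i))
    · rw [dif_pos hh, dif_pos hh, smul_apply, smul_eq_mul, slotMul_apply,
        mulArg_apply, mulArg_apply]
      congr 1
      congr 1
      funext p
      obtain ⟨ε, e', rfl⟩ := surv a K q h e σ hh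
      have hbij : Function.Bijective (fun i : Fin a => (e'.symm (i, 0)).1) := by
        have h1 := hh ⟨0, by omega⟩
        have h2 : (fun i => slot (Equiv.sumCongr ε e') σ ((cfg a K h).pos q ⟨0, by omega⟩ i)) =
            fun i : Fin a => (e'.symm (i, 0)).1 := by
          funext i
          rw [Cfg.pos_none (om_none (by
            show ¬ ((i : ℕ) + 1 < 0 ∧ _)
            omega)), Cfg.slot_sum_inr]
        rwa [h2] at h1
      have h3 := Cfg.pure_card e' (Equiv.ofBijective _ hbij) (fun i => rfl) G p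
      rw [mul_comm, ← h3]
      rfl
    · rw [dif_neg hh, dif_neg hh]
      rfl
  rw [_root_.sum_apply] at hM
  simp only [_root_.sum_apply, hval] at hM
  rw [← Fintype.sum_prod_type'] at hM
  exact H872.sum_zero_or _ _ (fun i => master_cls h hφ' w u i.1 i.2)
    (Equiv.sumCongr (1 : Equiv.Perm (Fin K)) (1 : Equiv.Perm (Fin a × Fin (q + 1))),
      fun _ : Fin K => (1 : Equiv.Perm (Fin a))) (witness h _ w u) hM

end Place

/-- **(T2)** -/
theorem place : PlaceStmt := by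
  intro A _ _ a k q L F hk hs hF x hx G hG w hw v hv
  let Φ : MultilinearMap ℂ (fun _ : Fin a => A) ℂ :=
    (mulArg ((altC x)^[k + 4] F) (fun _ => G ^ q)).compLinearMap (fun p => LinearMap.mulLeft ℂ
      (∏ i : Fin (k + 1), if (i : ℕ) + 1 < (p : ℕ) then w i else 1))
  have hΦ : ∀ y, Φ y = ((altC x)^[k + 4] F) (fun p =>
      (∏ i : Fin (k + 1), if (i : ℕ) + 1 < (p : ℕ) then w i else 1) * y p * G ^ q) := by
    intro y
    show ((altC x)^[k + 4] F) (fun p => G ^ q *
      ((∏ i : Fin (k + 1), if (i : ℕ) + 1 < (p : ℕ) then w i else 1) * y p)) = _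
    congr 1
    funext p
    ring
  rw [← hΦ]
  apply multilinear_zero_of_spans Φ (fun p : Fin a => {y | ∃ u : Fin a → A, (∀ n, u n ∈ L) ∧
      y = ∏ n : Fin a, if (n : ℕ) < min ((p : ℕ) - 1) (k + 1) + 3 then 1 else u n})
  · intro y hy
    choose u hu hy using hy
    have h1 := XF_zero (K := k + 1) (q := q) (by omega) L F hs hF x hx w hw u
      (fun i n => hu i n) G hG
    rw [XF, mulArg_apply] at h1
    rw [hΦ, ← h1]
    congr 1
    funext p
    rw [hy p, mul_comm]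
    rfl
  · intro p
    apply H872.pow_le_letters L (c := min ((p : ℕ) - 1) (k + 1) + 3) (by omega)
    have h2 : a - (min ((p : ℕ) - 1) (k + 1) + 3) = a - 3 - min ((p : ℕ) - 1) (k + 1) := by omega
    rw [h2]
    exact hv p

end Vale.Agent.P181.TQ
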