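import Vale.Agent.P181.TQ.Union

set_option autoImplicit false

/-!
# P181: Foulkes' inequality for all `λ` follows from its case `λ_a ≤ a`
-/

namespace Vale.Agent.P181.TQ

open Vale.Agent.P181 Vale.Agent.P181.H280

/-- **Reduction**: if `F(a, b, λ)` holds for all `b ≥ a` and all `λ` with `λ_i ≤ a` for some
`i ≤ a`, then it holds for all `b ≥ a` and all `λ`. -/
theorem reduce (a n : ℕ) (ha : 3 ≤ a) (han : a ≤ n)
    (H : ∀ (b : ℕ) (lam : Fin n → ℕ), a ≤ b → (∃ i : Fin n, (i : ℕ) < a ∧ lam i ≤ a) →
      plethMult a b n lam ≤ plethMult b a n lam) :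
    ∀ (b : ℕ) (lam : Fin n → ℕ), a ≤ b → plethMult a b n lam ≤ plethMult b a n lam := by
  intro b
  induction b using Nat.strong_induction_on with
  | _ b ih =>
    intro lam hab
    by_cases h : ∃ i : Fin n, (i : ℕ) < a ∧ lam i ≤ a
    · exact H b lam hab h
    · have h1 : ∀ i : Fin n, (i : ℕ) < a → a + 1 ≤ lam i := by
        intro i hi
        by_contra hc
        exact h ⟨i, hi, by omega⟩
      obtain ⟨c, hc, hac, hca⟩ : ∃ c, Even c ∧ a ≤ c ∧ c ≤ a + 1 := by
        rcases Nat.even_or_odd a with h2 | h2
        · exact ⟨a, h2, le_rfl, by omega⟩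
        · exact ⟨a + 1, h2.add_one, by omega, le_rfl⟩
      rcases Nat.lt_or_ge b (a + c) with h3 | h3
      · rcases Nat.lt_or_ge b (2 * a) with h4 | h4
        · refine H605.tall a b n ha hab han lam fun i hi => ?_
          have := h1 i hi
          omega
        · obtain rfl : b = 2 * a := by omega
          apply plethMult_le (by omega) le_rfl han
          intro i hi
          have := h1 i hi
          omega
      · obtain ⟨b', rfl⟩ : ∃ b', b = b' + c := ⟨b - c, by omega⟩
        refine col_sub ha han hc hac lam (fun i hi => ?_) (ih b' (by omega) _ (by omega))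
        have := h1 i hi
        omega

end Vale.Agent.P181.TQ
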