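import Vale.Agent.P181.TQ.Defs

set_option autoImplicit false
set_option linter.unusedSectionVars false

/-!
# P181: the survivors of the placement with `K + 3` columns
-/

namespace Vale.Agent.P181.TQ

open Vale.Agent.P181 Vale.Agent.P181.H280 Vale.Agent.P181.H73 Vale.Agent.P181.H270
  Vale.Agent.P181.H270.Cfg Finset

section Count

variable {a k N : ℕ} {C : Cfg a k N} {q : ℕ}
  {e : Equiv.Perm (Fin k ⊕ (Fin a × Fin (q + 1)))} {σ : Fin k → Equiv.Perm (Fin a)}

/-- The marked particle is dissolved. -/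
def Dis (e : Equiv.Perm (Fin k ⊕ (Fin a × Fin (q + 1)))) (X : Fin k ⊕ Fin a) : Prop :=
  ∃ t, e (.inl t) = gp q X

/-- Two whole particles in one slot have no common column. -/
lemma share (h : ∀ l, Function.Bijective (fun i => slot e σ (C.pos q l i)))
    {X Y : Fin k ⊕ Fin a} (hX : ¬ Dis e X) (hY : ¬ Dis e Y) (s s' : Fin a)
    (hs : slot e σ (gp q X, s) = slot e σ (gp q Y, s')) (l : Fin N) (hlX : C.Has l X)
    (hlY : C.Has l Y) : X = Y := by
  by_contra hne
  have hX' : ∀ t, e (.inl t) ≠ gp q X := fun t ht => hX ⟨t, ht⟩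
  have hY' : ∀ t, e (.inl t) ≠ gp q Y := fun t ht => hY ⟨t, ht⟩
  obtain ⟨i, n, hi⟩ := has_pos (q := q) hlX
  obtain ⟨i', n', hi'⟩ := has_pos (q := q) hlY
  have h1 : slot e σ (C.pos q l i) = slot e σ (C.pos q l i') := by
    rw [hi, hi', slot_const' hX' n s, slot_const' hY' n' s', hs]
  have h2 := (h l).1 h1
  rw [h2, hi'] at hi
  exact hne (gp_inj (Prod.mk.inj hi).1.symm)

/-- The columns which get their letter in the slot `p` from dissolved particles. -/
lemma send_card (h : ∀ l, Function.Bijective (fun i => slot e σ (C.pos q l i))) (s0 p : Fin a)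
    (S : Finset (Fin N)) (T : Finset (Fin k ⊕ Fin a))
    (hS : ∀ l ∈ S, ∀ X, C.Has l X → ¬ Dis e X → slot e σ (gp q X, s0) ≠ p)
    (hT : ∀ l ∈ S, ∀ X, C.Has l X → Dis e X → X ∈ T) : S.card ≤ T.card := by
  classical
  have hl : ∀ l : {l // l ∈ S}, ∃ (X : Fin k ⊕ Fin a) (t : Fin k) (i n : Fin a),
      e (.inl t) = gp q X ∧ C.pos q l.1 i = (gp q X, n) ∧ (σ t).symm n = p ∧ X ∈ T := by
    intro l
    obtain ⟨i, hi⟩ := (h l.1).2 p
    have hi' : slot e σ (C.pos q l.1 i) = p := hi
    obtain ⟨X, n, hXn, hXl⟩ := pos_has (C := C) (q := q) l.1 i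
    rw [hXn] at hi'
    by_cases hXd : Dis e X
    · obtain ⟨t, ht⟩ := hXd
      refine ⟨X, t, i, n, ht, hXn, ?_, hT l.1 l.2 X hXl ⟨t, ht⟩⟩
      rw [← ht, slot_e_inl] at hi'
      exact hi'
    · exfalso
      apply hS l.1 l.2 X hXl hXd
      rw [slot_const' (fun t ht => hXd ⟨t, ht⟩) s0 n]
      exact hi'
  choose X t i n hX hpos hslot hmem using hl
  have hinj : Function.Injective X := by
    intro l l' hll
    have h0 : t l = t l' := by
      apply Sum.inl_injective (β := Fin a × Fin (q + 1))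
      apply e.injective
      rw [hX l, hX l', hll]
    have h1 : n l = n l' := by
      apply (σ (t l)).symm.injective
      rw [hslot l, h0, hslot l']
    have h2 : C.pos q l.1 (i l) = C.pos q l'.1 (i l') := by
      rw [hpos l, hpos l', hll, h1]
    exact Subtype.ext (pos_inj h2).1
  have h1 := Finset.card_le_card_of_injOn (s := (Finset.univ : Finset {l // l ∈ S})) (t := T) X
    (fun l _ => hmem l) (hinj.injOn)
  rwa [Finset.card_univ, Fintype.card_coe] at h1

/-- At most `k` marked particles are dissolved. -/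
lemma dis_card (T : Finset (Fin k ⊕ Fin a)) (hT : ∀ X ∈ T, Dis e X) : T.card ≤ k := by
  classical
  have h2 : ∀ X : {X // X ∈ T}, ∃ t, e (.inl t) = gp q X.1 := fun X => hT X.1 X.2
  choose f hf using h2
  have hfinj : Function.Injective f := by
    intro X Y hXY
    apply Subtype.ext
    apply gp_inj (q := q)
    rw [← hf X, ← hf Y, hXY]
  have h4 := Fintype.card_le_of_injective f hfinj
  rwa [Fintype.card_fin, Fintype.card_coe] at h4

end Count

section Surv

variable {a K q : ℕ} {h : K + 3 ≤ a}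
  {e : Equiv.Perm (Fin K ⊕ (Fin a × Fin (q + 1)))} {σ : Fin K → Equiv.Perm (Fin a)}

lemma om_some {l : Fin (K + 3)} {i : Fin a}
    (h1 : (i : ℕ) + 1 < (l : ℕ) ∧ (l : ℕ) ≤ K + 1 + (i : ℕ)) : (cfg a K h).om l i =
      some ⟨K + 1 + (i : ℕ) - (l : ℕ), by omega⟩ := dif_pos h1

lemma om_none {l : Fin (K + 3)} {i : Fin a}
    (h1 : ¬ ((i : ℕ) + 1 < (l : ℕ) ∧ (l : ℕ) ≤ K + 1 + (i : ℕ))) : (cfg a K h).om l i = none :=
  dif_neg h1

lemma has_inr {l : Fin (K + 3)} {i : Fin a} : (cfg a K h).Has l (.inr i) ↔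
    ¬ ((i : ℕ) + 1 < (l : ℕ) ∧ (l : ℕ) ≤ K + 1 + (i : ℕ)) := by
  constructor
  · intro h1 h2
    have h3 : (cfg a K h).om l i = none := h1
    rw [om_some h2] at h3
    exact absurd h3 (by simp)
  · intro h1
    exact om_none h1

lemma has_inl {l : Fin (K + 3)} {κ : Fin K} (h1 : (cfg a K h).Has l (.inl κ)) :
    K + 1 ≤ (l : ℕ) + (κ : ℕ) := by
  obtain ⟨i, hi⟩ := h1
  by_cases h2 : (i : ℕ) + 1 < (l : ℕ) ∧ (l : ℕ) ≤ K + 1 + (i : ℕ)
  · rw [om_some h2] at hi
    have h3 := congrArg Fin.val (Option.some.inj hi)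
    simp only at h3
    omega
  · rw [om_none h2] at hi
    exact absurd hi (by simp)

lemma has_inl_of {l : Fin (K + 3)} {κ : Fin K} (h1 : K + 1 ≤ (l : ℕ)) :
    (cfg a K h).Has l (.inl κ) := by
  have hκ := κ.2
  have hl := l.2
  have hi : (κ : ℕ) + (l : ℕ) - (K + 1) < a := by omega
  refine ⟨⟨(κ : ℕ) + (l : ℕ) - (K + 1), hi⟩, ?_⟩
  rw [om_some (by
    show (κ : ℕ) + (l : ℕ) - (K + 1) + 1 < (l : ℕ) ∧ (l : ℕ) ≤ K + 1 + ((κ : ℕ) + (l : ℕ) - (K + 1))
    omega)]
  congr 1
  apply Fin.ext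
  show K + 1 + ((κ : ℕ) + (l : ℕ) - (K + 1)) - (l : ℕ) = (κ : ℕ)
  omega

/-- All `D_κ` are dissolved. -/
lemma surv_D' (hh : ∀ l, Function.Bijective (fun i => slot e σ ((cfg a K h).pos q l i)))
    (κ : Fin K) : Dis e (.inl κ) := by
  classical
  have ha : 0 < a := by omega
  set s0 : Fin a := ⟨0, ha⟩ with hs0
  let sl : Fin K ⊕ Fin a → Fin a := fun X => slot e σ (gp q X, s0)
  -- two `G`'s, two `D`'s
  have hGG : ∀ i i' : Fin a, ¬ Dis e (.inr i) → ¬ Dis e (.inr i') →
      sl (.inr i) = sl (.inr i') → i = i' := by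
    intro i i' h1 h2 h3
    have h4 := share hh h1 h2 s0 s0 h3 ⟨0, by omega⟩
      (has_inr.2 (by show ¬ ((i : ℕ) + 1 < 0 ∧ _); omega))
      (has_inr.2 (by show ¬ ((i' : ℕ) + 1 < 0 ∧ _); omega))
    exact Sum.inr.inj h4
  have hDD : ∀ κ κ' : Fin K, ¬ Dis e (.inl κ) → ¬ Dis e (.inl κ') →
      sl (.inl κ) = sl (.inl κ') → κ = κ' := by
    intro κ κ' h1 h2 h3
    have h4 := share hh h1 h2 s0 s0 h3 ⟨K + 1, by omega⟩ (has_inl_of le_rfl) (has_inl_of le_rfl)
    exact Sum.inl.inj h4
  -- every slot contains a whole marked particle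
  have hfull : ∀ p : Fin a, ∃ X, ¬ Dis e X ∧ sl X = p := by
    intro p
    by_contra hcon
    push Not at hcon
    have h1 := send_card hh s0 p Finset.univ (Finset.univ.filter (fun X => Dis e X))
      (fun l _ X _ hX => hcon X hX)
      (fun l _ X _ hX => Finset.mem_filter.2 ⟨Finset.mem_univ _, hX⟩)
    have h2 := dis_card (e := e) (Finset.univ.filter (fun X => Dis e X))
      (fun X hX => (Finset.mem_filter.1 hX).2)
    rw [Finset.card_univ, Fintype.card_fin] at h1
    omega
  let gd : Finset (Fin a) := Finset.univ.filter (fun i => Dis e (.inr i))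
  let AA : Finset (Fin K) := Finset.univ.filter (fun κ => ¬ Dis e (.inl κ) ∧
    ∀ i, ¬ Dis e (.inr i) → sl (.inr i) ≠ sl (.inl κ))
  have hgd : gd.card ≤ AA.card := by
    let P1 : Finset (Fin a) := (gdᶜ).image (fun i => sl (.inr i))
    have hP1 : P1.card = (gdᶜ).card := by
      apply Finset.card_image_of_injOn
      intro i hi i' hi' hii
      apply hGG i i' _ _ hii
      · intro hd
        exact (Finset.mem_compl.1 hi) (Finset.mem_filter.2 ⟨Finset.mem_univ _, hd⟩)
      · intro hd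
        exact (Finset.mem_compl.1 hi') (Finset.mem_filter.2 ⟨Finset.mem_univ _, hd⟩)
    have hP0 : (P1ᶜ).card = gd.card := by
      have h1 := Finset.card_compl_add_card P1
      have h2 := Finset.card_compl_add_card gd
      omega
    rw [← hP0]
    have h1 : ∀ p : {p // p ∈ P1ᶜ}, ∃ κ : Fin K, κ ∈ AA ∧ sl (.inl κ) = p.1 := by
      intro p
      have hp := Finset.mem_compl.1 p.2
      have hp' : ∀ i, ¬ Dis e (.inr i) → sl (.inr i) ≠ p.1 := by
        intro i hi h2
        apply hp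
        apply Finset.mem_image.2
        refine ⟨i, Finset.mem_compl.2 ?_, h2⟩
        intro h3
        exact hi (Finset.mem_filter.1 h3).2
      obtain ⟨X, hX, hXp⟩ := hfull p.1
      rcases X with κ | i
      · refine ⟨κ, Finset.mem_filter.2 ⟨Finset.mem_univ _, hX, ?_⟩, hXp⟩
        intro i hi
        rw [hXp]
        exact hp' i hi
      · exact absurd hXp (hp' i hX)
    choose f hf hfs using h1
    have h2 : Function.Injective f := by
      intro p p' hpp
      apply Subtype.ext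
      rw [← hfs p, ← hfs p', hpp]
    have h3 := Finset.card_le_card_of_injOn (s := (Finset.univ : Finset {p // p ∈ P1ᶜ}))
      (t := AA) f (fun p _ => hf p) h2.injOn
    rwa [Finset.card_univ, Fintype.card_coe] at h3
  -- no `D` is alone in its slot
  have hA : AA = ∅ := by
    by_contra hne
    have hne' : AA.Nonempty := Finset.nonempty_iff_ne_empty.2 hne
    set κ1 := AA.min' hne' with hκ1
    have hκ1A : κ1 ∈ AA := Finset.min'_mem _ _
    have hmin : ∀ κ ∈ AA, κ1 ≤ κ := fun κ hκ => Finset.min'_le _ _ hκ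
    obtain ⟨hw1, hal⟩ := (Finset.mem_filter.1 hκ1A).2
    have hκlt := κ1.2
    have h1 := send_card hh s0 (sl (.inl κ1))
      (Finset.univ.filter (fun l : Fin (K + 3) => (l : ℕ) < K - (κ1 : ℕ) + 1))
      (gd.map ⟨Sum.inr, Sum.inr_injective⟩ ∪
        (Finset.Ioi κ1 \ AA).map ⟨Sum.inl, Sum.inl_injective⟩) ?_ ?_
    · have h2 : (Finset.univ.filter (fun l : Fin (K + 3) => (l : ℕ) < K - (κ1 : ℕ) + 1)).card =
          K - (κ1 : ℕ) + 1 := by
        rw [Fin.card_filter_val_lt]
        omega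
      have h3 : (gd.map ⟨Sum.inr, Sum.inr_injective⟩ ∪
          (Finset.Ioi κ1 \ AA).map ⟨Sum.inl, Sum.inl_injective⟩ : Finset (Fin K ⊕ Fin a)).card ≤
          gd.card + (Finset.Ioi κ1 \ AA).card := by
        refine (Finset.card_union_le _ _).trans ?_
        rw [Finset.card_map, Finset.card_map]
      have h4 : (Finset.Ioi κ1 \ AA).card + (AA.erase κ1).card ≤ (Finset.Ioi κ1).card := by
        rw [← Finset.card_union_of_disjoint]
        · apply Finset.card_le_card
          apply Finset.union_subset Finset.sdiff_subset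
          intro κ hκ
          rw [Finset.mem_erase] at hκ
          exact Finset.mem_Ioi.2 (lt_of_le_of_ne (hmin κ hκ.2) (Ne.symm hκ.1))
        · rw [Finset.disjoint_left]
          intro κ hκ hκ'
          exact (Finset.mem_sdiff.1 hκ).2 (Finset.mem_of_mem_erase hκ')
      rw [Finset.card_erase_of_mem hκ1A, Fin.card_Ioi] at h4
      have h5 : 0 < AA.card := Finset.card_pos.2 hne'
      omega
    · intro l hl X hXl hXd hX
      have hl' := (Finset.mem_filter.1 hl).2
      rcases X with κ | i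
      · have h2 := hDD κ κ1 hXd hw1 hX
        subst h2
        have h3 := has_inl hXl
        omega
      · exact hal i hXd hX
    · intro l hl X hXl hXd
      have hl' := (Finset.mem_filter.1 hl).2
      rw [Finset.mem_union, Finset.mem_map, Finset.mem_map]
      rcases X with κ | i
      · right
        refine ⟨κ, Finset.mem_sdiff.2 ⟨Finset.mem_Ioi.2 ?_, ?_⟩, rfl⟩
        · have h3 := has_inl hXl
          show (κ1 : ℕ) < (κ : ℕ)
          omega
        · intro h4
          exact (Finset.mem_filter.1 h4).2.1 hXd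
      · left
        exact ⟨i, Finset.mem_filter.2 ⟨Finset.mem_univ _, hXd⟩, rfl⟩
  rw [hA, Finset.card_empty, Nat.le_zero, Finset.card_eq_zero] at hgd
  have hG : ∀ i, ¬ Dis e (.inr i) := by
    intro i hi
    have h1 : i ∈ gd := Finset.mem_filter.2 ⟨Finset.mem_univ _, hi⟩
    rw [hgd] at h1
    exact absurd h1 (Finset.notMem_empty _)
  -- the slot of `G_0`
  by_contra hcon
  have hκ := κ.2
  have h1 := send_card hh s0 (sl (.inr s0))
    (Finset.univ.filter (fun l : Fin (K + 3) => 2 ≤ (l : ℕ) ∧ (l : ℕ) < K + 2 - (κ : ℕ)))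
    ((Finset.Ioi κ).map ⟨Sum.inl, Sum.inl_injective⟩) ?_ ?_
  · have h2 : K - (κ : ℕ) ≤ (Finset.univ.filter
        (fun l : Fin (K + 3) => 2 ≤ (l : ℕ) ∧ (l : ℕ) < K + 2 - (κ : ℕ))).card := by
      have h3 : (Finset.univ : Finset (Fin (K - (κ : ℕ)))).card ≤ (Finset.univ.filter
        (fun l : Fin (K + 3) => 2 ≤ (l : ℕ) ∧ (l : ℕ) < K + 2 - (κ : ℕ))).card := by
        apply Finset.card_le_card_of_injOn
          (fun j : Fin (K - (κ : ℕ)) => (⟨(j : ℕ) + 2, by have := j.2; omega⟩ : Fin (K + 3)))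
        · intro j _
          have hj := j.2
          refine Finset.mem_coe.2 (Finset.mem_filter.2 ⟨Finset.mem_univ _, ?_⟩)
          show 2 ≤ (j : ℕ) + 2 ∧ (j : ℕ) + 2 < K + 2 - (κ : ℕ)
          omega
        · intro j _ j' _ hjj
          have h4 := congrArg Fin.val hjj
          simp only at h4
          exact Fin.ext (by omega)
      rwa [Finset.card_univ, Fintype.card_fin] at h3
    rw [Finset.card_map, Fin.card_Ioi] at h1
    omega
  · intro l hl X hXl hXd hX
    have hl' := (Finset.mem_filter.1 hl).2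
    rcases X with κ' | i
    · have h2 := share hh hXd (hG s0) s0 s0 hX ⟨K + 2, by omega⟩
        (has_inl_of (by show K + 1 ≤ K + 2; omega)) (has_inr.2 (by
          show ¬ (0 + 1 < K + 2 ∧ K + 2 ≤ K + 1 + 0)
          omega))
      exact absurd h2 Sum.inl_ne_inr
    · have h2 := hGG i s0 hXd (hG s0) hX
      subst h2
      apply has_inr.1 hXl
      show 0 + 1 < (l : ℕ) ∧ (l : ℕ) ≤ K + 1 + 0
      omega
  · intro l hl X hXl hXd
    have hl' := (Finset.mem_filter.1 hl).2
    rcases X with κ' | i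
    · rw [Finset.mem_map]
      refine ⟨κ', Finset.mem_Ioi.2 ?_, rfl⟩
      have h3 := has_inl hXl
      have h4 : κ ≠ κ' := by
        rintro rfl
        exact hcon hXd
      have h5 : (κ : ℕ) ≠ (κ' : ℕ) := fun h6 => h4 (Fin.ext h6)
      show (κ : ℕ) < (κ' : ℕ)
      omega
    · exact absurd hXd (hG i)

end Surv

/-- **(T1)** -/
theorem surv : SurvStmt := by
  intro a K q h e σ hh
  have h1 : ∀ κ : Fin K, ∃ t, e (.inl t) = .inl κ := fun κ => surv_D' hh κ
  choose f hf using h1
  have hfinj : Function.Injective f := by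
    intro κ κ' hκ
    apply Sum.inl_injective (β := Fin a × Fin (q + 1))
    rw [← hf κ, ← hf κ', hκ]
  have hfsurj : Function.Surjective f := Finite.injective_iff_surjective.1 hfinj
  have h2 : Set.MapsTo e (Set.range Sum.inl) (Set.range Sum.inl) := by
    rintro _ ⟨t, rfl⟩
    obtain ⟨κ, rfl⟩ := hfsurj t
    exact ⟨κ, (hf κ).symm⟩
  obtain ⟨⟨ε, e'⟩, h3⟩ := Equiv.Perm.mem_sumCongrHom_range_of_perm_mapsTo_inl h2
  exact ⟨ε, e', h3.symm⟩

end Vale.Agent.P181.TQ
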