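import Vale.Agent.P181.TQ.Final
import Vale.Agent.P181.H907.TallEven
import Vale.Agent.P181.H605.AllTall
import Vale.Agent.P181.SEP.Final
import Vale.Agent.P181.H385.ColAdd
import Vale.Agent.P181.H280.Final

set_option autoImplicit false

/-!
# P181: the union of the theorems for tall shapes
-/

namespace Vale.Agent.P181.TQ

open Vale.Agent.P181 Vale.Agent.P181.H280

/-- Forms of degree `a ≥ 3` in `a` variables have an invariant of every even degree `c ≥ a`. -/
theorem inv_all {a c : ℕ} (ha : 3 ≤ a) (hc : Even c) (hac : a ≤ c) :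
    1 ≤ plethMult c a a (fun _ => c) := by
  refine (H385.rectL a c hc).trans (H605.tall a c a ha hac le_rfl _ ?_)
  intro i _
  omega

/-- **Full columns may be added**: `F(a, b, lam)` implies `F(a, b + c, lam + c^a)` for all even
`c ≥ a ≥ 3`. -/
theorem col_add {a b c n : ℕ} (ha : 3 ≤ a) (han : a ≤ n) (hc : Even c) (hac : a ≤ c)
    (lam : Fin n → ℕ) (h : plethMult a b n lam ≤ plethMult b a n lam) :
    plethMult a (b + c) n (fun i => lam i + if (i : ℕ) < a then c else 0) ≤
      plethMult (b + c) a n (fun i => lam i + if (i : ℕ) < a then c else 0) :=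
  H385.colAdd a b c n lam (by omega) han hc (inv_all ha hc hac) h

/-- The subtractive form. -/
theorem col_sub {a b c n : ℕ} (ha : 3 ≤ a) (han : a ≤ n) (hc : Even c) (hac : a ≤ c)
    (lam : Fin n → ℕ) (hlam : ∀ i : Fin n, (i : ℕ) < a → c ≤ lam i)
    (h : plethMult a b n (fun i => lam i - if (i : ℕ) < a then c else 0) ≤
      plethMult b a n (fun i => lam i - if (i : ℕ) < a then c else 0)) :
    plethMult a (b + c) n lam ≤ plethMult (b + c) a n lam := by
  have h1 := col_add ha han hc hac _ h
  have h2 : (fun i : Fin n => (lam i - if (i : ℕ) < a then c else 0) +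
      if (i : ℕ) < a then c else 0) = lam := by
    funext i
    by_cases hi : (i : ℕ) < a
    · rw [if_pos hi]
      exact Nat.sub_add_cancel (hlam i hi)
    · rw [if_neg hi]
      rfl
  rwa [h2] at h1

/-- Reduction to `b' = s a`. -/
theorem red_zero {a b c s n : ℕ} (ha : 3 ≤ a) (han : a ≤ n) (hc : Even c) (hac : a ≤ c)
    (hs : 1 ≤ s) (hb : b = s * a + c) (lam : Fin n → ℕ)
    (hlam : ∀ i : Fin n, (i : ℕ) < a → c ≤ lam i ∧ (s = 1 ∨ 2 * s + c ≤ lam i + 3)) :
    plethMult a b n lam ≤ plethMult b a n lam := by
  subst hb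
  apply col_sub ha han hc hac lam (fun i hi => (hlam i hi).1)
  rcases Nat.lt_or_ge 1 s with h | h
  · apply plethMult_le (by omega) h han
    intro i hi
    rw [if_pos hi]
    have h1 := hlam i hi
    omega
  · obtain rfl : s = 1 := by omega
    rw [one_mul]

/-- **One sentence for all tall shapes**: `λ_a ≥ a + (b mod a) + 2 ⌊b/a⌋`. -/
theorem tallG (a b n : ℕ) (ha : 3 ≤ a) (hab : a ≤ b) (han : a ≤ n) (lam : Fin n → ℕ)
    (h : ∀ i : Fin n, (i : ℕ) < a → a + b % a + 2 * (b / a) ≤ lam i) :
    plethMult a b n lam ≤ plethMult b a n lam := by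
  have hdm := Nat.div_add_mod b a
  have hmod : b % a < a := Nat.mod_lt _ (by omega)
  have hdiv : 1 ≤ b / a := (Nat.one_le_div_iff (by omega)).2 hab
  set k := b % a with hk
  obtain ⟨p, hp⟩ : ∃ p, b / a = p + 1 := ⟨b / a - 1, by omega⟩
  rw [hp] at h hdm
  have hb : b = p * a + (a + k) := by rw [← hdm]; ring
  rcases Nat.eq_zero_or_pos p with hp0 | hp0
  · subst hp0
    apply H605.tall a b n ha hab han lam
    intro i hi
    have h1 := h i hi
    omega
  · by_cases hev : Even (a + k)
    · refine red_zero (c := a + k) (s := p) ha han hev (by omega) hp0 hb lam ?_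
      intro i hi
      have h1 := h i hi
      omega
    · rcases Nat.eq_zero_or_pos k with hk0 | hk0
      · have hb' : b = (p + 1) * a := by rw [hb, hk0]; ring
        rw [hb']
        apply plethMult_le (by omega) (by omega) han
        intro i hi
        have h1 := h i hi
        omega
      · have hod : Odd (a + k) := Nat.not_even_iff_odd.1 hev
        obtain ⟨r, hr⟩ := hod
        have hc : Even (2 * r) := even_two_mul r
        have hb' : b = (p * a + 1) + 2 * r := by omega
        rw [hb']
        apply col_sub ha han hc (by omega) lam (fun i hi => by have h1 := h i hi; omega)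
        have hlam : ∀ i : Fin n, (i : ℕ) < a →
            (lam i - if (i : ℕ) < a then 2 * r else 0) = lam i - 2 * r := by
          intro i hi
          rw [if_pos hi]
        rcases Nat.lt_or_ge 1 p with hp1 | hp1
        · have hle : 2 * a ≤ p * a := Nat.mul_le_mul_right a hp1
          have hd : (p * a + 1) / a = p ∧ (p * a + 1) % a = 1 := by
            rw [Nat.div_mod_unique (by omega)]
            exact ⟨by rw [mul_comm a p, add_comm], by omega⟩
          refine SEP.sep a (p * a + 1) n 2 (by omega) (by omega) han _ ?_ (by omega)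
            (Or.inl ⟨1, rfl⟩) ?_ ?_
          · rw [hd.2]
          · rw [hd.1]
            obtain ⟨a', rfl⟩ : ∃ a', a = a' + 3 := ⟨a - 3, by omega⟩
            have h3 : a' + 3 - 2 = a' + 1 := by omega
            rw [h3]
            have h4 : 2 * (a' + 1) ≤ p * (a' + 1) := Nat.mul_le_mul_right _ hp1
            omega
          · intro i hi
            rw [hlam i hi, hd.1]
            have h1 := h i hi
            omega
        · obtain rfl : p = 1 := by omega
          rw [one_mul]
          apply H605.tall a (a + 1) n ha (by omega) han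
          intro i hi
          rw [hlam i hi]
          have h1 := h i hi
          omega

/-- **Few columns, `b mod a ≤ a - 4`**: `λ_a ≥ (b mod a) + 2 ⌊b/a⌋ - 2` or so. -/
theorem tallF (a b n : ℕ) (ha : 3 ≤ a) (hab : 2 * a ≤ b) (han : a ≤ n) (lam : Fin n → ℕ)
    (hk : 1 ≤ b % a) (hka : b % a + 4 ≤ a ∨ (b % a = 1 ∧ 4 ≤ a))
    (hlo : ∀ i : Fin n, (i : ℕ) < a → b % a + 4 ≤ lam i + (b % a) % 2 ∧
      b % a + 2 * (b / a) ≤ lam i + 1 + (b % a) % 2)
    (hex : 2 * (b % a) + 3 ≤ a ∨ Even (a + b % a) ∨ (Odd a ∧ 3 * a ≤ b) ∨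
      ∃ i : Fin n, (i : ℕ) < a ∧ lam i + a < b) :
    plethMult a b n lam ≤ plethMult b a n lam := by
  have hdm := Nat.div_add_mod b a
  have hmod : b % a < a := Nat.mod_lt _ (by omega)
  have hdiv : 2 ≤ b / a := (Nat.le_div_iff_mul_le (by omega)).2 hab
  have hdiv' : b / a * a + b % a = b := by rw [mul_comm]; exact hdm
  by_cases hgap : ∃ i : Fin n, (i : ℕ) < a ∧ lam i + a < b
  · obtain ⟨i, hi, hi2⟩ := hgap
    have h1 := tallTQ a (b / a) (b % a) n lam hk hka hdiv han hlo ⟨i, hi, by
      obtain ⟨p, hp⟩ : ∃ p, b / a = p + 1 := ⟨b / a - 1, by omega⟩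
      rw [hp] at hdiv' ⊢
      have h2 : (p + 1) * a = p * a + a := by ring
      have h3 : p + 1 - 1 = p := by omega
      rw [h3]
      omega⟩
    rwa [hdiv'] at h1
  · push Not at hgap
    generalize hkk : b % a = k at *
    obtain ⟨p, hp⟩ : ∃ p, b / a = p + 2 := ⟨b / a - 2, by omega⟩
    rw [hp] at hdiv' hlo hdiv
    have hb : b = (p + 1) * a + (a + k) := by rw [← hdiv']; ring
    have hp1 : (p + 1) * a = p * a + a := by ring
    have hex' : 2 * k + 3 ≤ a ∨ Even (a + k) ∨ (Odd a ∧ 3 * a ≤ b) := by
      rcases hex with h1 | h1 | h1 | ⟨i, hi, hi2⟩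
      · exact Or.inl h1
      · exact Or.inr (Or.inl h1)
      · exact Or.inr (Or.inr h1)
      · exact absurd hi2 (not_lt.2 (hgap i hi))
    -- reduction to `(p + 1) a`
    have hE : Even (a + k) → plethMult a b n lam ≤ plethMult b a n lam := by
      intro hev
      refine red_zero (c := a + k) (s := p + 1) ha han hev (by omega) (by omega) hb lam ?_
      intro i hi
      have h1 := hgap i hi
      refine ⟨by omega, ?_⟩
      rcases Nat.eq_zero_or_pos p with h2 | h2
      · left
        omega
      · right
        have h3 : 3 * p ≤ p * a := by rw [mul_comm p a]; exact Nat.mul_le_mul_right p ha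
        omega
    rcases hex' with h1 | h1 | ⟨h1, h2⟩
    · -- separating columns
      have key : (p + 2) * (k + 2) ≤ (p + 1) * a + 1 := by
        have h3 : (p + 1) * (2 * k + 3) ≤ (p + 1) * a := Nat.mul_le_mul_left _ h1
        nlinarith [Nat.zero_le (p * k), Nat.zero_le p, Nat.zero_le k]
      obtain ⟨r, hr1, hr2, hr3⟩ : ∃ r, k + 1 ≤ r ∧ r ≤ k + 2 ∧ Even r := by
        rcases Nat.even_or_odd k with hk2 | hk2
        · obtain ⟨s, hs⟩ := hk2
          exact ⟨k + 2, by omega, le_rfl, ⟨s + 1, by omega⟩⟩
        · obtain ⟨s, hs⟩ := hk2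
          exact ⟨k + 1, le_rfl, by omega, ⟨s + 1, by omega⟩⟩
      have hra : r ≤ a := by omega
      have hpr : (p + 2) * r ≤ (p + 2) * (k + 2) := Nat.mul_le_mul_left _ hr2
      refine SEP.sep a b n r (by omega) (by omega) han lam (by rw [hkk]; exact hr1) hra
        (Or.inl hr3) ?_ ?_
      · rw [hp]
        have h4 : (p + 2) * (a - r) + (p + 2) * r = (p + 2) * a := by
          rw [← Nat.mul_add, Nat.sub_add_cancel hra]
        have h5 : (p + 2) * a = (p + 1) * a + a := by ring
        omega
      · intro i hi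
        rw [hp]
        have h6 := hgap i hi
        omega
    · exact hE h1
    · by_cases hev : Even (a + k)
      · exact hE hev
      · have hp0 : 1 ≤ p := by
          by_contra hc
          have h3 : p = 0 := by omega
          subst h3
          omega
        obtain ⟨s, rfl⟩ : ∃ s, p = s + 1 := ⟨p - 1, by omega⟩
        have hk2 : Even (2 * a + k) := by
          obtain ⟨u, hu⟩ := h1
          have hod : Odd (a + k) := Nat.not_even_iff_odd.1 hev
          obtain ⟨v, hv⟩ := hod
          exact ⟨a + (v - u), by omega⟩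
        have hb2 : b = (s + 1) * a + (2 * a + k) := by rw [hb]; ring
        refine red_zero (c := 2 * a + k) (s := s + 1) ha han hk2 (by omega) (by omega) hb2 lam ?_
        intro i hi
        have h4 := hgap i hi
        have h5 : (s + 1 + 1) * a = (s + 1) * a + a := by ring
        have h6 : (s + 1) * a = s * a + a := by ring
        refine ⟨by omega, ?_⟩
        rcases Nat.eq_zero_or_pos s with h7 | h7
        · left
          omega
        · right
          have h8 : 3 * s ≤ s * a := by rw [mul_comm s a]; exact Nat.mul_le_mul_right s ha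
          omega

end Vale.Agent.P181.TQ
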